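import Mathlib

open Filter Topology

noncomputable section

namespace Vale.Agent.P101

variable (A : Type*) [CStarAlgebra A] [Nontrivial A]

/-- The algebra of bounded sequences in `A`. -/
abbrev Linf : Type _ := lp (fun _ : ℕ => A) ⊤

/-- The ideal of bounded sequences whose norms tend to zero along `ω`. -/
def nullIdeal (ω : Ultrafilter ℕ) : Ideal (Linf A) where
  carrier := {a | Tendsto (fun n => ‖a n‖) ω (𝓝 0)}
  add_mem' := by
    intro a b ha hb
    have h := ha.add hb
    simp only [add_zero] at h
    refine squeeze_zero (fun n => norm_nonneg _) (fun n => ?_) h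
    simpa using norm_add_le (a n) (b n)
  zero_mem' := by
    simp
  smul_mem' := by
    intro c a ha
    have h := ha.const_mul ‖c‖
    simp only [mul_zero] at h
    refine squeeze_zero (fun n => norm_nonneg _) (fun n => ?_) h
    have h1 : (c • a) n = c n * a n := by
      simp [smul_eq_mul]
    rw [h1]
    exact (norm_mul_le _ _).trans
      (mul_le_mul_of_nonneg_right (lp.norm_apply_le_norm (by simp) c n) (norm_nonneg _))

theorem mem_nullIdeal {ω : Ultrafilter ℕ} {a : Linf A} :
    a ∈ nullIdeal A ω ↔ Tendsto (fun n => ‖a n‖) ω (𝓝 0) := Iff.rfl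

instance nullIdeal_isTwoSided (ω : Ultrafilter ℕ) : (nullIdeal A ω).IsTwoSided where
  mul_mem_of_left := by
    intro a c ha
    have h := (mem_nullIdeal A).1 ha
    have h2 := h.mul_const ‖c‖
    simp only [zero_mul] at h2
    refine (mem_nullIdeal A).2 (squeeze_zero (fun n => norm_nonneg _) (fun n => ?_) h2)
    have h1 : (a * c) n = a n * c n := by simp
    rw [h1]
    exact (norm_mul_le _ _).trans
      (mul_le_mul_of_nonneg_left (lp.norm_apply_le_norm (by simp) c n) (norm_nonneg _))

theorem star_mem_nullIdeal {ω : Ultrafilter ℕ} {a : Linf A} (ha : a ∈ nullIdeal A ω) :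
    star a ∈ nullIdeal A ω := by
  have h := (mem_nullIdeal A).1 ha
  refine (mem_nullIdeal A).2 ?_
  simpa using h

/-- The norm ultrapower `A_ω`. -/
abbrev Ultrapower (ω : Ultrafilter ℕ) : Type _ := Linf A ⧸ nullIdeal A ω


variable {A} in
/-- The quotient map from bounded sequences to the ultrapower. -/
abbrev mkU (ω : Ultrafilter ℕ) : Linf A →+* Ultrapower A ω := Ideal.Quotient.mk (nullIdeal A ω)

instance ultrapowerStar (ω : Ultrafilter ℕ) : Star (Ultrapower A ω) where
  star := Quotient.map' star (by
    intro a b h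
    rw [Submodule.quotientRel_def] at h ⊢
    have := star_mem_nullIdeal A h
    simpa using this)

theorem star_mkU (ω : Ultrafilter ℕ) (a : Linf A) : star (mkU ω a) = mkU ω (star a) := rfl

instance ultrapowerStarRing (ω : Ultrafilter ℕ) : StarRing (Ultrapower A ω) where
  star_involutive := by
    intro x
    obtain ⟨a, rfl⟩ := Ideal.Quotient.mk_surjective x
    simp [star_mkU]
  star_mul := by
    intro x y
    obtain ⟨a, rfl⟩ := Ideal.Quotient.mk_surjective x
    obtain ⟨b, rfl⟩ := Ideal.Quotient.mk_surjective y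
    rw [star_mkU, star_mkU, ← (mkU ω).map_mul, ← (mkU ω).map_mul, star_mkU, star_mul]
  star_add := by
    intro x y
    obtain ⟨a, rfl⟩ := Ideal.Quotient.mk_surjective x
    obtain ⟨b, rfl⟩ := Ideal.Quotient.mk_surjective y
    rw [star_mkU, star_mkU, ← (mkU ω).map_add, ← (mkU ω).map_add, star_mkU, star_add]

theorem smul_mkU (ω : Ultrafilter ℕ) (c : ℂ) (a : Linf A) : c • mkU ω a = mkU ω (c • a) := rfl

instance ultrapowerStarModule (ω : Ultrafilter ℕ) : StarModule ℂ (Ultrapower A ω) where
  star_smul := by
    intro c x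
    obtain ⟨a, rfl⟩ := Ideal.Quotient.mk_surjective x
    simp only [star_mkU, smul_mkU, star_smul]

/-- The constant sequence with value `a`. -/
def constSeq (a : A) : Linf A :=
  ⟨fun _ => a, memℓp_infty ⟨‖a‖, by rintro _ ⟨n, rfl⟩; exact le_rfl⟩⟩

@[simp] theorem constSeq_apply (a : A) (n : ℕ) : constSeq A a n = a := rfl

/-- The central sequence algebra `F_ω(A)`: the relative commutant in `A_ω` of the
constant sequences. -/
def centralSeqAlg (ω : Ultrafilter ℕ) : StarSubalgebra ℂ (Ultrapower A ω) :=
  StarSubalgebra.centralizer ℂ (Set.range fun a : A => mkU ω (constSeq A a))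

/-- `F_ω(A)` has a character: a unital star homomorphism to the complex numbers. -/
def HasCharacter (ω : Ultrafilter ℕ) : Prop := Nonempty (centralSeqAlg A ω →⋆ₐ[ℂ] ℂ)

end Vale.Agent.P101

end
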